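import Vale.Agent.P012.H422.Upper

/-!
Short Egyptian fractions with denominators `b * D`: partial fractions reduce `a / b` to
`O(log b / log D)` fractions with small denominators.
-/

namespace Vale.Agent.N012

open Finset Vale.Agent.P012 Vale.Agent.P012.H422

/-- partial fractions for pairwise coprime moduli. -/
theorem pfrac (P : Finset ℕ) (hpos : ∀ v ∈ P, 0 < v)
    (hcop : ∀ v ∈ P, ∀ w ∈ P, v ≠ w → Nat.Coprime v w) :
    ∀ N : ℤ, ∃ (T : ℤ) (r : ℕ → ℕ), (∀ v ∈ P, r v < v) ∧
      (N : ℚ) / ((∏ v ∈ P, v : ℕ) : ℚ) = T + ∑ v ∈ P, (r v : ℚ) / v := by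
  classical
  induction P using Finset.induction_on with
  | empty => intro N; exact ⟨N, fun _ => 0, by simp, by simp⟩
  | insert m P hm ih =>
    intro N
    have hm0 : 0 < m := hpos m (mem_insert_self _ _)
    set M := ∏ v ∈ P, v with hM
    have hM0 : 0 < M := Finset.prod_pos fun v hv => hpos v (mem_insert_of_mem hv)
    have hc : Nat.Coprime m M := Nat.Coprime.prod_right fun v hv =>
      hcop m (mem_insert_self _ _) v (mem_insert_of_mem hv) (fun h => hm (h ▸ hv))
    obtain ⟨x, y, hxy⟩ : IsCoprime (m : ℤ) (M : ℤ) := Nat.isCoprime_iff_coprime.2 hc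
    obtain ⟨T, r, hr, hT⟩ := ih (fun v hv => hpos v (mem_insert_of_mem hv))
      (fun v hv w hw => hcop v (mem_insert_of_mem hv) w (mem_insert_of_mem hw)) (N * x)
    have hmz : (0 : ℤ) < m := by exact_mod_cast hm0
    have h1 : 0 ≤ (N * y) % m := Int.emod_nonneg _ hmz.ne'
    have h2 : (N * y) % m < m := Int.emod_lt_of_pos _ hmz
    refine ⟨T + (N * y) / m, Function.update r m ((N * y) % m).toNat, ?_, ?_⟩
    · intro v hv
      rcases mem_insert.1 hv with h | h
      · subst h
        rw [Function.update_self]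
        omega
      · rw [Function.update_of_ne (fun h' : v = m => hm (h' ▸ h))]
        exact hr v h
    · rw [Finset.prod_insert hm, Finset.sum_insert hm, Function.update_self]
      have h3 : ∑ v ∈ P, ((Function.update r m ((N * y) % m).toNat v : ℕ) : ℚ) / v
          = ∑ v ∈ P, (r v : ℚ) / v := by
        refine Finset.sum_congr rfl fun v hv => ?_
        rw [Function.update_of_ne (fun h' : v = m => hm (h' ▸ hv))]
      rw [h3]
      have h4 : ((((N * y) % m).toNat : ℕ) : ℚ) = (((N * y) % m : ℤ) : ℚ) := by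
        have := Int.toNat_of_nonneg h1
        exact_mod_cast congrArg (fun z : ℤ => (z : ℚ)) this
      have h5 : ((N * y : ℤ) : ℚ) = m * (((N * y) / m : ℤ) : ℚ) + (((N * y) % m : ℤ) : ℚ) := by
        exact_mod_cast (Int.mul_ediv_add_emod (N * y) m).symm
      have h6 : (x : ℚ) * m + y * M = 1 := by exact_mod_cast hxy
      have hmq : (m : ℚ) ≠ 0 := by positivity
      have hMq : (M : ℚ) ≠ 0 := by positivity
      rw [h4, ← hM]
      have h7 : (N : ℚ) / ((m * M : ℕ) : ℚ) = ((N * x : ℤ) : ℚ) / M + ((N * y : ℤ) : ℚ) / m := by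
        push_cast
        field_simp
        linear_combination (-(N : ℚ)) * h6
      rw [h7, hT, h5]
      push_cast
      field_simp
      ring

/-- every proper fraction with denominator at most `Y` is a sum of at most `F` unit fractions
with denominators at most `B`. -/
def Base (Y B F : ℕ) : Prop := ∀ v u : ℕ, v ≤ Y → u < v → IsUFB B F ((u : ℚ) / v)

theorem sum_isUFB {Y B F : ℕ} (h : Base Y B F) (P : Finset ℕ) (hP : ∀ v ∈ P, v ≤ Y)
    (r : ℕ → ℕ) (hr : ∀ v ∈ P, r v < v) :
    IsUFB B (P.card * F) (∑ v ∈ P, (r v : ℚ) / v) := by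
  classical
  induction P using Finset.induction_on with
  | empty => simpa using isUFB_zero B 0
  | insert m P hm ih =>
    rw [Finset.sum_insert hm, Finset.card_insert_of_notMem hm]
    have h1 := (h m (r m) (hP m (mem_insert_self _ _)) (hr m (mem_insert_self _ _))).add
      (ih (fun v hv => hP v (mem_insert_of_mem hv)) (fun v hv => hr v (mem_insert_of_mem hv)))
    exact h1.mono le_rfl (le_of_eq (by ring))

/-- a large numerator over the product of the moduli: an integer plus a short sum. -/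
theorem pfUF {Y B F : ℕ} (h : Base Y B F) (P : Finset ℕ) (hpos : ∀ v ∈ P, 0 < v)
    (hP : ∀ v ∈ P, v ≤ Y) (hcop : ∀ v ∈ P, ∀ w ∈ P, v ≠ w → Nat.Coprime v w) (N : ℕ)
    (hN : P.card * ∏ v ∈ P, v ≤ N) :
    ∃ (T : ℕ) (x : ℚ), IsUFB B (P.card * F) x ∧ T * ∏ v ∈ P, v ≤ N ∧
      (N : ℚ) / ((∏ v ∈ P, v : ℕ) : ℚ) = T + x := by
  obtain ⟨T, r, hr, hT⟩ := pfrac P hpos hcop N
  set V := ∏ v ∈ P, v with hV
  have hV0 : (0 : ℚ) < V := by
    have : 0 < V := Finset.prod_pos hpos
    exact_mod_cast this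
  have hx0 : 0 ≤ ∑ v ∈ P, (r v : ℚ) / v := Finset.sum_nonneg fun v _ => by positivity
  have hx1 : ∑ v ∈ P, (r v : ℚ) / v ≤ P.card := by
    have := Finset.sum_le_card_nsmul P (fun v => (r v : ℚ) / v) 1 (fun v hv => by
      have h1 : (0 : ℚ) < v := by exact_mod_cast hpos v hv
      have h2 : (r v : ℚ) ≤ v := by exact_mod_cast (hr v hv).le
      exact (div_le_one h1).2 h2)
    simpa using this
  have hN' : (P.card : ℚ) ≤ (N : ℚ) / V := by
    rw [le_div_iff₀ hV0]
    exact_mod_cast hN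
  have hT' : ((N : ℤ) : ℚ) = (N : ℚ) := by norm_cast
  rw [hT'] at hT
  have hT0 : (0 : ℚ) ≤ T := by linarith
  have hT0' : 0 ≤ T := by exact_mod_cast hT0
  obtain ⟨t, rfl⟩ := Int.eq_ofNat_of_zero_le hT0'
  refine ⟨t, _, sum_isUFB h P hP r hr, ?_, by simpa using hT⟩
  have h1 : (t : ℚ) ≤ (N : ℚ) / V := by
    have : ((t : ℤ) : ℚ) = (t : ℚ) := by norm_cast
    linarith
  rw [le_div_iff₀ hV0] at h1
  exact_mod_cast h1

/-- digits in base `Z`. -/
theorem power {Y B F Z : ℕ} (h : Base Y B F) (hZ : 0 < Z) (hZY : Z ≤ Y) :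
    ∀ s T : ℕ, T < Z ^ s → IsUFB (B * Z ^ s) (s * F) ((T : ℚ) / (Z ^ s : ℕ)) := by
  intro s
  induction s with
  | zero =>
    intro T hT
    have : T = 0 := by simpa using hT
    subst this
    simpa using isUFB_zero B 0
  | succ s ih =>
    intro T hT
    have h1 : T / Z < Z ^ s := by
      rw [Nat.div_lt_iff_lt_mul hZ]; rwa [pow_succ] at hT
    have h2 := ih _ h1
    have h3 := (h Z (T % Z) hZY (Nat.mod_lt _ hZ)).div (t := Z ^ s) (by positivity)
    have h4 := h2.add h3
    have h5 : ((T / Z : ℕ) : ℚ) / (Z ^ s : ℕ) + ((T % Z : ℕ) : ℚ) / Z / (Z ^ s : ℕ)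
        = (T : ℚ) / (Z ^ (s + 1) : ℕ) := by
      have h6 : (T : ℚ) = Z * ((T / Z : ℕ) : ℚ) + ((T % Z : ℕ) : ℚ) := by
        exact_mod_cast (Nat.div_add_mod T Z).symm
      have hZq : (Z : ℚ) ≠ 0 := by positivity
      rw [h6]
      push_cast
      field_simp
      ring
    rw [h5] at h4
    refine h4.mono (Nat.mul_le_mul_left _ (Nat.pow_le_pow_right hZ (by omega))) (le_of_eq ?_)
    ring

/-- the reduction of `a / b` to `3 J + 3` fractions with small denominators. -/
theorem core {Y B F Z : ℕ} (h : Base Y B F) (hZY : Z ≤ Y) (P : Finset ℕ)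
    (hP : ∀ v ∈ P, Z ≤ v ∧ v ≤ Y) (hcop : ∀ v ∈ P, ∀ w ∈ P, v ≠ w → Nat.Coprime v w)
    (hJ : P.card + 2 ≤ Z) (a b : ℕ) (hab : a < b) (hb1 : b ≤ Z ^ P.card)
    (hb2 : Z ^ P.card ≤ b * Z) :
    IsUFB (B * (b * Z ^ 3)) ((3 * P.card + 3) * F) ((a : ℚ) / b) := by
  rcases Nat.eq_zero_or_pos a with h0 | ha
  · subst h0; simpa using isUFB_zero _ _
  set J := P.card with hJdef
  have hZ : 0 < Z := by omega
  have hb : 0 < b := by omega
  have hpos : ∀ v ∈ P, 0 < v := fun v hv => lt_of_lt_of_le hZ (hP v hv).1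
  set V := ∏ v ∈ P, v with hV
  have hV0 : 0 < V := Finset.prod_pos hpos
  have hbV : b ≤ V := hb1.trans (Finset.pow_card_le_prod P (fun v => v) Z (fun v hv => (hP v hv).1))
  have hle : (J + 2) * V ≤ a * Z * V := by
    apply Nat.mul_le_mul_right
    calc J + 2 ≤ Z := hJ
      _ ≤ a * Z := Nat.le_mul_of_pos_left _ ha
  obtain ⟨X, hX⟩ : ∃ X, a * Z * V = J * V + X := ⟨a * Z * V - J * V, by
    have : J * V ≤ (J + 2) * V := Nat.mul_le_mul_right _ (by omega)
    omega⟩
  have hX2 : 2 * V ≤ X := by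
    have : (J + 2) * V = J * V + 2 * V := by ring
    omega
  set A := X / b with hA
  set N := X % b with hN
  have hAN : b * A + N = X := Nat.div_add_mod X b
  have hNb : N < b := Nat.mod_lt _ hb
  have hbA : V ≤ b * A := by omega
  -- first part
  obtain ⟨T₁, x₁, hx₁, hT₁, he₁⟩ := pfUF h P hpos (fun v hv => (hP v hv).2) hcop (N + J * V)
    (Nat.le_add_left _ _)
  rw [← hV] at hT₁ he₁
  have hT₁Z : T₁ < Z := by
    by_contra hc
    have h1 : (J + 1) * V ≤ T₁ * V := Nat.mul_le_mul_right _ (by omega)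
    have h2 : (J + 1) * V = J * V + V := by ring
    omega
  -- second part
  obtain ⟨T₂, x₂, hx₂, hT₂, he₂⟩ := pfUF h P hpos (fun v hv => (hP v hv).2) hcop
    (A * Z ^ (J + 1)) (by
      rw [← hV, ← hJdef]
      calc J * V ≤ Z * (b * A) := Nat.mul_le_mul (by omega) hbA
        _ = A * (b * Z) := by ring
        _ ≤ A * (Z ^ J * Z) := Nat.mul_le_mul_left _ (Nat.mul_le_mul_right _ hb1)
        _ = A * Z ^ (J + 1) := by rw [pow_succ])
  rw [← hV] at hT₂ he₂
  have hAV : A < Z * V := by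
    have h1 : b * A < b * (Z * V) := by
      calc b * A ≤ a * Z * V := by omega
        _ = a * (Z * V) := by ring
        _ < b * (Z * V) := Nat.mul_lt_mul_of_pos_right hab (Nat.mul_pos hZ hV0)
    exact Nat.lt_of_mul_lt_mul_left h1
  have hT₂Z : T₂ < Z ^ (J + 2) := by
    have h1 : T₂ * V < Z ^ (J + 2) * V := by
      calc T₂ * V ≤ A * Z ^ (J + 1) := hT₂
        _ < Z * V * Z ^ (J + 1) := Nat.mul_lt_mul_of_pos_right hAV (by positivity)
        _ = Z ^ (J + 2) * V := by ring
    exact Nat.lt_of_mul_lt_mul_right h1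
  have hZ3 : Z ^ (J + 2) ≤ b * Z ^ 3 := by
    calc Z ^ (J + 2) = Z ^ J * Z ^ 2 := by ring
      _ ≤ b * Z * Z ^ 2 := Nat.mul_le_mul_right _ hb2
      _ = b * Z ^ 3 := by ring
  have hZ1 : 1 ≤ Z ^ 3 := Nat.one_le_pow _ _ hZ
  have hZ1' : Z ≤ Z ^ 3 := Nat.le_self_pow (by norm_num) Z
  have p1 := ((h Z T₁ hZY hT₁Z).div hb).mono (B' := B * (b * Z ^ 3))
    (Nat.mul_le_mul_left _ (Nat.le_mul_of_pos_right _ hZ1)) le_rfl
  have p2 := (hx₁.div (t := b * Z) (Nat.mul_pos hb hZ)).mono (B' := B * (b * Z ^ 3))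
    (Nat.mul_le_mul_left _ (Nat.mul_le_mul_left _ hZ1')) le_rfl
  have p3 := (power h hZ hZY (J + 2) T₂ hT₂Z).mono (B' := B * (b * Z ^ 3))
    (Nat.mul_le_mul_left _ hZ3) le_rfl
  have p4 := (hx₂.div (t := Z ^ (J + 2)) (by positivity)).mono (B' := B * (b * Z ^ 3))
    (Nat.mul_le_mul_left _ hZ3) le_rfl
  have p := (p1.add p2).add (p3.add p4)
  have hsum : (T₁ : ℚ) / Z / b + x₁ / ((b * Z : ℕ) : ℚ) +
      ((T₂ : ℚ) / ((Z ^ (J + 2) : ℕ) : ℚ) + x₂ / ((Z ^ (J + 2) : ℕ) : ℚ)) = (a : ℚ) / b := by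
    have hZq : (Z : ℚ) ≠ 0 := by positivity
    have hbq : (b : ℚ) ≠ 0 := by positivity
    have hVq : (V : ℚ) ≠ 0 := by positivity
    have e1 : (T₁ : ℚ) / Z / b + x₁ / ((b * Z : ℕ) : ℚ) = ((T₁ : ℚ) + x₁) / (b * Z) := by
      push_cast; field_simp
    have e2 : (T₂ : ℚ) / ((Z ^ (J + 2) : ℕ) : ℚ) + x₂ / ((Z ^ (J + 2) : ℕ) : ℚ)
        = ((T₂ : ℚ) + x₂) / Z ^ (J + 2) := by
      push_cast; field_simp
    have e3 : (a : ℚ) * Z * V = J * V + (b * A + N) := by
      rw [← hAN] at hX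
      exact_mod_cast hX
    rw [e1, e2, ← he₁, ← he₂]
    push_cast
    field_simp
    linear_combination (-(Z : ℚ) ^ (J + 2)) * e3
  rw [hsum] at p
  exact p.mono le_rfl (le_of_eq (by ring))

/-- merging equal denominators costs only a factor of the order of the number of terms. -/
theorem merge2 (B : ℕ) : ∀ (k : ℕ) (m : Multiset ℕ), Multiset.card m = k →
    (∀ n ∈ m, 0 < n ∧ n ≤ B) →
    (m.map (fun n : ℕ => 1 / (2 : ℚ) ^ (n.factorization 2))).sum ≤ 1 →
    ∃ s : Finset ℕ, s.card ≤ k ∧ (∀ n ∈ s, 0 < n ∧ n ≤ B) ∧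
      ∑ n ∈ s, (1 : ℚ) / n = (m.map (fun n : ℕ => 1 / (n : ℚ))).sum := by
  intro k
  induction k with
  | zero =>
    intro m hm _ _
    rw [Multiset.card_eq_zero] at hm
    subst hm
    exact ⟨∅, by simp, by simp, by simp⟩
  | succ k ih =>
    intro m hm hall hpot
    by_cases hnd : m.Nodup
    · exact ⟨⟨m, hnd⟩, hm.le, fun n hn => hall n hn, rfl⟩
    · rw [Multiset.nodup_iff_ne_cons_cons] at hnd
      push Not at hnd
      obtain ⟨n, t, rfl⟩ := hnd
      rw [Multiset.card_cons, Multiset.card_cons] at hm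
      obtain ⟨hn0, hnB⟩ := hall n (Multiset.mem_cons_self _ _)
      rw [Multiset.map_cons, Multiset.sum_cons, Multiset.map_cons, Multiset.sum_cons] at hpot
      have ht0 : 0 ≤ (t.map (fun n : ℕ => 1 / (2 : ℚ) ^ (n.factorization 2))).sum :=
        Multiset.sum_nonneg fun x hx => by
          obtain ⟨y, -, rfl⟩ := Multiset.mem_map.1 hx
          positivity
      have hv : n.factorization 2 ≠ 0 := by
        intro h0
        rw [h0] at hpot
        norm_num at hpot
        simp only [one_div] at ht0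
        linarith
      obtain ⟨c, hc⟩ : 2 ∣ n := Nat.dvd_of_factorization_pos hv
      have hc0 : 0 < c := by omega
      have hfc : n.factorization 2 = c.factorization 2 + 1 := by
        rw [hc, Nat.factorization_mul (by norm_num) hc0.ne', Finsupp.add_apply,
          Nat.Prime.factorization_self Nat.prime_two, add_comm]
      obtain ⟨s, hs1, hs2, hs3⟩ := ih (c ::ₘ t) (by rw [Multiset.card_cons]; omega) (by
        intro a ha
        rcases Multiset.mem_cons.1 ha with h | h
        · subst h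
          exact ⟨hc0, by omega⟩
        · exact hall a (Multiset.mem_cons_of_mem (Multiset.mem_cons_of_mem h))) (by
        rw [Multiset.map_cons, Multiset.sum_cons]
        rw [hfc, pow_succ] at hpot
        have : (1 : ℚ) / 2 ^ (c.factorization 2) = 1 / (2 ^ (c.factorization 2) * 2)
            + 1 / (2 ^ (c.factorization 2) * 2) := by
          field_simp; norm_num
        linarith)
      refine ⟨s, by omega, hs2, ?_⟩
      rw [hs3, Multiset.map_cons, Multiset.sum_cons, Multiset.map_cons, Multiset.sum_cons,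
        Multiset.map_cons, Multiset.sum_cons, ← add_assoc]
      congr 1
      rw [hc]
      have : (c : ℚ) ≠ 0 := by positivity
      push_cast
      field_simp
      norm_num

/-- distinct denominators after division by a power of two that exceeds the number of terms. -/
theorem distinct {B K t : ℕ} {x : ℚ} (h : IsUFB B K x) (hK : K ≤ 2 ^ t) :
    ∃ s : Finset ℕ, s.card ≤ K ∧ (∀ n ∈ s, 0 < n ∧ n ≤ B * 2 ^ t) ∧
      ∑ n ∈ s, (1 : ℚ) / n = x / 2 ^ t := by
  obtain ⟨M, hM1, hM2, hM3⟩ := h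
  obtain ⟨s, hs1, hs2, hs3⟩ := merge2 (B * 2 ^ t) (Multiset.card M) (M.map (fun n => n * 2 ^ t))
    (Multiset.card_map _ _) (by
      intro n hn
      obtain ⟨c, hc, rfl⟩ := Multiset.mem_map.1 hn
      exact ⟨Nat.mul_pos (hM1 c hc).1 (by positivity), Nat.mul_le_mul_right _ (hM1 c hc).2⟩) (by
      have h1 := Multiset.sum_le_card_nsmul
        ((M.map (fun n => n * 2 ^ t)).map (fun n : ℕ => 1 / (2 : ℚ) ^ (n.factorization 2)))
        (1 / (2 : ℚ) ^ t) (by
          intro y hy
          obtain ⟨n, hn, rfl⟩ := Multiset.mem_map.1 hy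
          obtain ⟨c, hc, rfl⟩ := Multiset.mem_map.1 hn
          have h2 : t ≤ (c * 2 ^ t).factorization 2 := by
            rw [Nat.factorization_mul (hM1 c hc).1.ne' (by positivity), Finsupp.add_apply,
              Nat.Prime.factorization_pow Nat.prime_two]
            simp
          exact one_div_le_one_div_of_le (by positivity) (pow_le_pow_right₀ (by norm_num) h2))
      refine h1.trans ?_
      rw [Multiset.card_map, Multiset.card_map, nsmul_eq_mul, mul_one_div,
        div_le_one (by positivity)]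
      exact_mod_cast hM2.trans hK)
  refine ⟨s, hs1.trans hM2, hs2, ?_⟩
  rw [hs3, Multiset.map_map, ← hM3, ← Multiset.sum_map_div]
  congr 1
  apply Multiset.map_congr rfl
  intro n _
  simp only [Function.comp]
  push_cast
  rw [div_div]

end Vale.Agent.N012
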