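import Vale.Agent.P012.Bdl.B1

/-!
Lower bounds: the trade-off for prime denominators, and the number of numerators with a very short
expansion.
-/

namespace Vale.Agent.N012

open Finset Filter Vale.Agent.P012

theorem card_small_subsets (X : Finset ℕ) (k : ℕ) :
    (X.powerset.filter (fun E => E.card ≤ k)).card ≤ (X.card + 1) ^ k := by
  induction k with
  | zero =>
    rw [pow_zero, Finset.card_le_one]
    intro a ha b hb
    simp only [mem_filter, Nat.le_zero, Finset.card_eq_zero] at ha hb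
    rw [ha.2, hb.2]
  | succ k ih =>
    have h1 : X.powerset.filter (fun E => E.card ≤ k + 1) ⊆
        X.powerset.filter (fun E => E.card ≤ k) ∪ X.powersetCard (k + 1) := by
      intro E hE
      simp only [mem_filter, mem_union, mem_powerset, mem_powersetCard] at hE ⊢
      by_cases h : E.card ≤ k
      · exact Or.inl ⟨hE.1, h⟩
      · exact Or.inr ⟨hE.1, by omega⟩
    have h2 : (X.powersetCard (k + 1)).card ≤ X.card * (X.card + 1) ^ k := by
      rw [Finset.card_powersetCard]
      calc X.card.choose (k + 1) ≤ X.card ^ (k + 1) := Nat.choose_le_pow _ _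
        _ = X.card * X.card ^ k := by ring
        _ ≤ _ := Nat.mul_le_mul_left _ (Nat.pow_le_pow_left (by omega) _)
    calc _ ≤ _ := Finset.card_le_card h1
      _ ≤ _ := Finset.card_union_le _ _
      _ ≤ (X.card + 1) ^ k + X.card * (X.card + 1) ^ k := Nat.add_le_add ih h2
      _ = (X.card + 1) ^ (k + 1) := by ring

theorem exists_mul_sum (u : Finset ℕ) (P : ℕ) (h : ∀ n ∈ u, n ≠ 0 ∧ n ∣ P) :
    ∃ z : ℕ, (z : ℚ) = P * ∑ n ∈ u, (1 : ℚ) / n := by
  refine ⟨∑ n ∈ u, P / n, ?_⟩
  rw [Finset.mul_sum]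
  push_cast
  refine Finset.sum_congr rfl fun n hn => ?_
  rw [Nat.cast_div (h n hn).2 (by exact_mod_cast (h n hn).1)]
  ring

theorem eq_of_sub {p a a' : ℕ} (hp : p.Prime) (ha : a < p) (ha' : a' < p) (u u' : Finset ℕ)
    (hu : ∀ n ∈ u, ¬ p ∣ n) (hu' : ∀ n ∈ u', ¬ p ∣ n)
    (h : (a : ℚ) / p - ∑ n ∈ u, (1 : ℚ) / n = (a' : ℚ) / p - ∑ n ∈ u', (1 : ℚ) / n) : a = a' := by
  set P := ∏ n ∈ u ∪ u', n with hP
  have hPp : ¬ p ∣ P := by
    intro h
    obtain ⟨n, hn, h'⟩ := (hp.prime.dvd_finsetProd_iff _).1 h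
    rcases mem_union.1 hn with h1 | h1
    · exact hu n h1 h'
    · exact hu' n h1 h'
  obtain ⟨z, hz⟩ := exists_mul_sum u P (fun n hn => ⟨fun h0 => hu n hn (h0 ▸ dvd_zero p),
    Finset.dvd_prod_of_mem _ (mem_union_left _ hn)⟩)
  obtain ⟨z', hz'⟩ := exists_mul_sum u' P (fun n hn => ⟨fun h0 => hu' n hn (h0 ▸ dvd_zero p),
    Finset.dvd_prod_of_mem _ (mem_union_right _ hn)⟩)
  have hp0 : (p : ℚ) ≠ 0 := by exact_mod_cast hp.ne_zero
  have h1 : (P : ℚ) * a + p * z' = P * a' + p * z := by
    rw [hz, hz']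
    field_simp at h
    linear_combination (P : ℚ) * h
  have h2 : P * a + p * z' = P * a' + p * z := by exact_mod_cast h1
  have h3 : P * a ≡ P * a' [MOD p] := by
    have h4 : P * a + p * z' ≡ P * a' + p * z [MOD p] := by rw [h2]
    simpa [Nat.ModEq] using h4
  have h5 : a ≡ a' [MOD p] :=
    Nat.ModEq.cancel_left_of_coprime ((Nat.Prime.coprime_iff_not_dvd hp).2 hPp) h3
  exact Nat.ModEq.eq_of_lt_of_lt h5 ha ha'

/-- for a prime `b`, denominators at most `b * D` force `log b / log (D + 1)` terms. -/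
theorem prime_lower (b D k : ℕ) (hb : b.Prime)
    (h : ∀ a : ℕ, 1 ≤ a → a < b →
      ∃ s : Finset ℕ, IsExpansion a b s ∧ s.card ≤ k ∧ ∀ n ∈ s, n ≤ b * D) :
    b ≤ (D + 1) ^ k := by
  have h' : ∀ a : ℕ, ∃ s : Finset ℕ, a < b →
      IsExpansion a b s ∧ s.card ≤ k ∧ ∀ n ∈ s, n ≤ b * D := by
    intro a
    by_cases hab : a < b
    · rcases Nat.eq_zero_or_pos a with h0 | h0
      · subst h0
        exact ⟨∅, fun _ => ⟨⟨by simp, by simp⟩, by simp, by simp⟩⟩
      · obtain ⟨s, hs⟩ := h a h0 hab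
        exact ⟨s, fun _ => hs⟩
    · exact ⟨∅, fun h => absurd h hab⟩
  choose s hs using h'
  have hrec : ∀ a, (((s a).filter (fun n => b ∣ n)).image (fun n => n / b)).image (fun e => b * e)
      = (s a).filter (fun n => b ∣ n) := by
    intro a
    rw [Finset.image_image]
    conv_rhs => rw [← Finset.image_id (s := (s a).filter (fun n => b ∣ n))]
    refine Finset.image_congr fun n hn => ?_
    exact Nat.mul_div_cancel' (Finset.mem_filter.1 hn).2
  have h1 : (range b).card ≤ ((Icc 1 D).powerset.filter (fun E => E.card ≤ k)).card := by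
    refine Finset.card_le_card_of_injOn
      (fun a => ((s a).filter (fun n => b ∣ n)).image (fun n => n / b)) ?_ ?_
    · intro a ha
      obtain ⟨h2, h3, h4⟩ := hs a (by simpa using ha)
      simp only [coe_filter, mem_powerset, Set.mem_ofPred_eq]
      refine ⟨fun e he => ?_, (Finset.card_image_le.trans (Finset.card_filter_le _ _)).trans h3⟩
      obtain ⟨n, hn, rfl⟩ := Finset.mem_image.1 he
      rw [Finset.mem_filter] at hn
      rw [Finset.mem_Icc]
      exact ⟨Nat.div_pos (Nat.le_of_dvd (by have := h2.1 n hn.1; omega) hn.2) hb.pos,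
        Nat.div_le_of_le_mul (h4 n hn.1)⟩
    · intro a ha a' ha' hE
      have ha1 : a < b := by simpa using ha
      have ha2 : a' < b := by simpa using ha'
      have h2 : (s a).filter (fun n => b ∣ n) = (s a').filter (fun n => b ∣ n) := by
        rw [← hrec a, ← hrec a']
        exact congrArg _ hE
      refine eq_of_sub hb ha1 ha2 ((s a).filter (fun n => ¬ b ∣ n))
        ((s a').filter (fun n => ¬ b ∣ n)) (fun n hn => (Finset.mem_filter.1 hn).2)
        (fun n hn => (Finset.mem_filter.1 hn).2) ?_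
      rw [← (hs a ha1).1.2, ← (hs a' ha2).1.2,
        ← Finset.sum_filter_add_sum_filter_not (s a) (fun n => b ∣ n),
        ← Finset.sum_filter_add_sum_filter_not (s a') (fun n => b ∣ n), h2]
      ring
  have h2 := card_small_subsets (Icc 1 D) k
  rw [Nat.card_Icc, Nat.add_sub_cancel] at h2
  rw [Finset.card_range] at h1
  exact h1.trans h2

theorem card_le_of_close (S : Finset ℕ) (w : ℝ) (hw : 0 ≤ w)
    (h : ∀ a ∈ S, ∀ a' ∈ S, (a : ℝ) ≤ a' + w) : (S.card : ℝ) ≤ w + 1 := by
  rcases S.eq_empty_or_nonempty with rfl | hne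
  · simp only [card_empty, CharP.cast_eq_zero]; linarith
  have h1 : S ⊆ Icc (S.min' hne) (S.min' hne + ⌊w⌋₊) := by
    intro a ha
    rw [mem_Icc]
    refine ⟨S.min'_le a ha, ?_⟩
    have h2 := h a ha _ (S.min'_mem hne)
    have h3 := Nat.lt_floor_add_one w
    have : (a : ℝ) < ((S.min' hne + ⌊w⌋₊ + 1 : ℕ) : ℝ) := by push_cast; linarith
    have : a < S.min' hne + ⌊w⌋₊ + 1 := by exact_mod_cast this
    omega
  have h4 := Finset.card_le_card h1
  rw [Nat.card_Icc] at h4
  have h5 : S.card ≤ ⌊w⌋₊ + 1 := by omega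
  have h6 : (S.card : ℝ) ≤ ⌊w⌋₊ + 1 := by exact_mod_cast h5
  linarith [Nat.floor_le hw]

open Classical in
/-- few numerators have a very short expansion. -/
theorem card_short (b : ℕ) (hb : 1 ≤ b) : ∀ (k : ℕ) (x : ℚ),
    (((range b).filter (fun a : ℕ => IsUF k ((a : ℚ) / b - x))).card : ℝ)
      ≤ (8 * k + 1) * (b / (b : ℝ) ^ (1 / 2 ^ k : ℝ)) := by
  have hbR : (1 : ℝ) ≤ b := by exact_mod_cast hb
  have hb0 : (0 : ℝ) < b := by linarith
  have hbQ : (0 : ℚ) < b := by exact_mod_cast hb
  intro k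
  induction k with
  | zero =>
    intro x
    have h1 : ((range b).filter (fun a : ℕ => IsUF 0 ((a : ℚ) / b - x))).card ≤ 1 := by
      rw [Finset.card_le_one]
      intro a ha a' ha'
      obtain ⟨m, -, h2, h3⟩ := (mem_filter.1 ha).2
      obtain ⟨m', -, h2', h3'⟩ := (mem_filter.1 ha').2
      rw [Nat.le_zero, Multiset.card_eq_zero] at h2 h2'
      subst h2 h2'
      have h4 : (a : ℚ) / b = a' / b := by
        simp only [Multiset.map_zero, Multiset.sum_zero] at h3 h3'
        linarith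
      rw [div_left_inj' hbQ.ne'] at h4
      exact_mod_cast h4
    simp only [CharP.cast_eq_zero, mul_zero, zero_add, pow_zero, div_one, Real.rpow_one, one_mul,
      div_self hb0.ne']
    exact_mod_cast h1
  | succ k ih =>
    intro x
    set y := (b : ℝ) ^ (1 / 2 ^ (k + 1) : ℝ) with hy
    have hy1 : 1 ≤ y := Real.one_le_rpow hbR (by positivity)
    have hy0 : 0 < y := by linarith
    have hyy : (b : ℝ) ^ (1 / 2 ^ k : ℝ) = y * y := by
      rw [hy, ← Real.rpow_add hb0]
      congr 1
      field_simp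
      ring
    have hyb : y ≤ b := by
      have h1 : (1 / 2 ^ (k + 1) : ℝ) ≤ 1 := by
        rw [div_le_one (by positivity)]
        exact one_le_pow₀ (by norm_num)
      have := Real.rpow_le_rpow_of_exponent_le hbR h1
      rwa [Real.rpow_one] at this
    rw [hyy] at ih
    have hk0 : (0 : ℝ) ≤ k := Nat.cast_nonneg k
    set q := (b : ℝ) / y with hq
    have hq1 : 1 ≤ q := (one_le_div hy0).2 hyb
    have hqy : q * y = b := by rw [hq]; field_simp
    push_cast
    by_cases hy4 : y < 4
    · have h1 : (((range b).filter (fun a : ℕ => IsUF (k + 1) ((a : ℚ) / b - x))).card : ℝ) ≤ b := by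
        have := Finset.card_filter_le (range b) (fun a : ℕ => IsUF (k + 1) ((a : ℚ) / b - x))
        rw [Finset.card_range] at this
        exact_mod_cast this
      nlinarith
    push Not at hy4
    set T := ⌈y / 4⌉₊ with hT
    have hT1 : y / 4 ≤ T := Nat.le_ceil _
    have hT2 : (T : ℝ) < y / 4 + 1 := Nat.ceil_lt_add_one (by positivity)
    have hT0 : (0 : ℝ) < T := by linarith
    have hT0' : (0 : ℚ) < T := by exact_mod_cast hT0
    have hcover : (range b).filter (fun a : ℕ => IsUF (k + 1) ((a : ℚ) / b - x)) ⊆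
        (range b).filter (fun a : ℕ => 0 ≤ (a : ℚ) / b - x ∧ (a : ℚ) / b - x ≤ (k + 1) / T) ∪
        (Icc 1 T).biUnion (fun n => (range b).filter
          (fun a : ℕ => IsUF k ((a : ℚ) / b - (x + 1 / n)))) := by
      intro a ha
      rw [mem_filter] at ha
      obtain ⟨ha1, m, h1, h2, h3⟩ := ha
      by_cases hm : ∀ n ∈ m, T ≤ n
      · refine mem_union_left _ (mem_filter.2 ⟨ha1, ?_, ?_⟩)
        · rw [← h3]; exact sum_nonneg' m
        · rw [← h3]
          refine (sum_le_of_forall hT0' (fun n hn => by exact_mod_cast hm n hn)).trans ?_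
          have : ((Multiset.card m : ℕ) : ℚ) ≤ k + 1 := by exact_mod_cast h2
          rw [mul_one_div]
          gcongr
      · push Not at hm
        obtain ⟨n, hn, hnT⟩ := hm
        obtain ⟨m', rfl⟩ := Multiset.exists_cons_of_mem hn
        refine mem_union_right _ (mem_biUnion.2 ⟨n, mem_Icc.2 ⟨h1 n hn, hnT.le⟩,
          mem_filter.2 ⟨ha1, m', fun c hc => h1 c (Multiset.mem_cons_of_mem hc), ?_, ?_⟩⟩)
        · rw [Multiset.card_cons] at h2; omega
        · rw [Multiset.map_cons, Multiset.sum_cons] at h3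
          linarith
    have hA : (((range b).filter (fun a : ℕ => 0 ≤ (a : ℚ) / b - x ∧
        (a : ℚ) / b - x ≤ (k + 1) / T)).card : ℝ) ≤ b * ((k + 1) / T) + 1 := by
      apply card_le_of_close _ _ (by positivity)
      intro a ha a' ha'
      have h1 := (mem_filter.1 ha).2.2
      have h2 := (mem_filter.1 ha').2.1
      have h3 : (a : ℚ) ≤ a' + b * ((k + 1) / T) := by
        have h4 : (a : ℚ) / b ≤ a' / b + (k + 1) / T := by linarith
        rw [div_le_iff₀ hbQ] at h4
        have h5 : ((a' : ℚ) / b + (k + 1) / T) * b = a' + b * ((k + 1) / T) := by field_simp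
        linarith
      have h6 : ((a : ℚ) : ℝ) ≤ ((a' + b * ((k + 1) / T) : ℚ) : ℝ) := Rat.cast_le.2 h3
      push_cast at h6
      exact h6
    have hB : (((Icc 1 T).biUnion (fun n => (range b).filter
        (fun a : ℕ => IsUF k ((a : ℚ) / b - (x + 1 / n))))).card : ℝ)
        ≤ T * ((8 * k + 1) * (b / (y * y))) := by
      calc _ ≤ ((∑ n ∈ Icc 1 T, ((range b).filter
            (fun a : ℕ => IsUF k ((a : ℚ) / b - (x + 1 / n)))).card : ℕ) : ℝ) := by
            exact_mod_cast Finset.card_biUnion_le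
        _ ≤ ∑ n ∈ Icc 1 T, ((8 * k + 1) * (b / (y * y)) : ℝ) := by
            push_cast
            exact Finset.sum_le_sum fun n _ => ih _
        _ = _ := by simp
    have hA' : (b : ℝ) * ((k + 1) / T) ≤ 4 * (k + 1) * q := by
      rw [← mul_div_assoc, div_le_iff₀ hT0, ← hqy]
      have : (0 : ℝ) ≤ (k + 1) * q := by positivity
      nlinarith
    have hB' : (T : ℝ) * ((8 * k + 1) * (b / (y * y))) ≤ (8 * k + 1) / 2 * q := by
      have h1 : (b : ℝ) / (y * y) = q / y := by rw [hq]; field_simp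
      have h2 : (T : ℝ) ≤ y / 2 := by linarith
      calc (T : ℝ) * ((8 * k + 1) * (b / (y * y))) ≤ y / 2 * ((8 * k + 1) * (q / y)) := by
            rw [h1]; gcongr
        _ = _ := by field_simp
    have h1 := (Finset.card_le_card hcover).trans (Finset.card_union_le _ _)
    have h2 : (((range b).filter (fun a : ℕ => IsUF (k + 1) ((a : ℚ) / b - x))).card : ℝ) ≤ _ :=
      Nat.cast_le.2 h1
    push_cast at h2
    nlinarith

/-- all but `o(b)` numerators need `c log log b` terms, for every `c < 1 / log 2`. -/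
theorem almost_all (c : ℝ) (hc : c < 1 / Real.log 2) :
    Tendsto (fun b : ℕ => (((Ico 1 b).filter
      (fun a => (numTerms a b : ℝ) ≤ c * Real.log (Real.log b))).card : ℝ) / b) atTop (nhds 0) := by
  classical
  have hl2 : 0 < Real.log 2 := Real.log_pos (by norm_num)
  set d := max c 0 with hd
  have hd0 : 0 ≤ d := le_max_right _ _
  have hd1 : d * Real.log 2 < 1 := by
    rw [← lt_div_iff₀ hl2]
    exact max_lt hc (by positivity)
  set η := 1 - d * Real.log 2 with hη
  have hη0 : 0 < η := by linarith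
  have hlim : Tendsto (fun u : ℝ => 8 * d * (u ^ (1 : ℝ) * Real.exp (-η * u))
      + u ^ (0 : ℝ) * Real.exp (-η * u)) atTop (nhds (8 * d * 0 + 0)) :=
    ((tendsto_rpow_mul_exp_neg_mul_atTop_nhds_zero 1 η hη0).const_mul _).add
      (tendsto_rpow_mul_exp_neg_mul_atTop_nhds_zero 0 η hη0)
  rw [mul_zero, add_zero] at hlim
  refine squeeze_zero' (Eventually.of_forall fun b => by positivity) ?_ (hlim.comp tendsto_loglog)
  filter_upwards [tendsto_loglog.eventually_ge_atTop 0, eventually_ge_atTop 2] with b hu hb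
  set u := Real.log (Real.log b) with hudef
  have hb2 : (2 : ℝ) ≤ b := by exact_mod_cast hb
  have hb0 : (0 : ℝ) < b := by linarith
  have hl0 : 0 < Real.log b := Real.log_pos (by linarith)
  set k := ⌊d * u⌋₊ with hk
  have hkd : (k : ℝ) ≤ d * u := Nat.floor_le (by positivity)
  have hsub : (Ico 1 b).filter (fun a => (numTerms a b : ℝ) ≤ c * u) ⊆
      (range b).filter (fun a : ℕ => IsUF k ((a : ℚ) / b - 0)) := by
    intro a ha
    rw [mem_filter, mem_Ico] at ha
    obtain ⟨-, s, hs1, hs2⟩ := numTerms_spec ha.1.1 ha.1.2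
    have h1 : numTerms a b ≤ k :=
      Nat.le_floor (ha.2.trans (mul_le_mul_of_nonneg_right (le_max_left _ _) hu))
    refine mem_filter.2 ⟨mem_range.2 ha.1.2, ?_⟩
    rw [sub_zero, ← hs2.2]
    exact (isUF_sum s (fun n => n) (fun n hn => by have := hs2.1 n hn; omega)).mono (by omega)
  have h1 : (((Ico 1 b).filter (fun a => (numTerms a b : ℝ) ≤ c * u)).card : ℝ)
      ≤ (8 * k + 1) * (b / (b : ℝ) ^ (1 / 2 ^ k : ℝ)) :=
    le_trans (Nat.cast_le.2 (Finset.card_le_card hsub)) (card_short b (by omega) k 0)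
  have h2 : Real.exp (η * u) ≤ (b : ℝ) ^ (1 / 2 ^ k : ℝ) := by
    rw [Real.rpow_def_of_pos hb0]
    refine le_trans ?_ (Real.add_one_le_exp _)
    have h3 : (2 : ℝ) ^ k ≤ Real.exp (d * Real.log 2 * u) := by
      rw [← Real.exp_log (x := 2 ^ k) (by positivity), Real.log_pow]
      apply Real.exp_le_exp.2
      nlinarith
    have h4 : Real.exp (η * u) * Real.exp (d * Real.log 2 * u) = Real.log b := by
      rw [← Real.exp_add, hη, ← Real.exp_log hl0, ← hudef]
      congr 1; ring
    have h5 : Real.exp (η * u) ≤ Real.log b * (1 / 2 ^ k) := by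
      rw [mul_one_div, le_div_iff₀ (by positivity), ← h4]
      exact mul_le_mul_of_nonneg_left h3 (Real.exp_pos _).le
    linarith
  simp only [Function.comp, Real.rpow_one, Real.rpow_zero]
  rw [div_le_iff₀ hb0]
  refine h1.trans ?_
  have h6 : (b : ℝ) / (b : ℝ) ^ (1 / 2 ^ k : ℝ) ≤ b * Real.exp (-η * u) := by
    rw [neg_mul, Real.exp_neg, ← div_eq_mul_inv]
    exact div_le_div_of_nonneg_left hb0.le (Real.exp_pos _) h2
  calc (8 * (k : ℝ) + 1) * (b / (b : ℝ) ^ (1 / 2 ^ k : ℝ))
      ≤ (8 * (d * u) + 1) * (b * Real.exp (-η * u)) := by gcongr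
    _ = _ := by ring

end Vale.Agent.N012
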