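import Vale.Agent.N012.Trade

/-!
The trade-off in terms of real logarithms.
-/

namespace Vale.Agent.N012

open Finset Filter Vale.Agent.P012 Vale.Agent.P012.H422

theorem natLog_le_div {Z b : ℕ} (hZ : 2 ≤ Z) (hb : b ≠ 0) :
    (Nat.log Z b : ℝ) * Real.log Z ≤ Real.log b := by
  have h1 : Z ^ Nat.log Z b ≤ b := Nat.pow_log_le_self Z hb
  have h2 : ((Z : ℝ) ^ Nat.log Z b) ≤ b := by exact_mod_cast h1
  have hZ0 : (0 : ℝ) < Z := by exact_mod_cast (by omega : 0 < Z)
  have h3 := Real.log_le_log (by positivity) h2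
  rwa [Real.log_pow] at h3

theorem trade : ∃ A C : ℝ, 0 < C ∧ ∀ᶠ b : ℕ in atTop, ∀ D : ℝ, Real.log b ^ A ≤ D → D ≤ b →
    ∀ a : ℕ, 1 ≤ a → a < b → ∃ s : Finset ℕ, IsExpansion a b s ∧
      (s.card : ℝ) ≤ C * (Real.log b / Real.log D) * Real.log (Real.log D) ∧
      ∀ n ∈ s, (n : ℝ) ≤ b * D := by
  obtain ⟨C, Z₀, hC⟩ := trade_nat
  refine ⟨334, (C + 1) * (335 * 7), by positivity, ?_⟩
  have hlog : Tendsto (fun b : ℕ => Real.log b) atTop atTop :=
    Real.tendsto_log_atTop.comp tendsto_natCast_atTop_atTop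
  filter_upwards [hlog.eventually_ge_atTop 5, hlog.eventually_ge_atTop (Z₀ : ℝ),
    tendsto_loglog.eventually_ge_atTop 1, eventually_ge_atTop 1] with b hb5 hbZ hll hb1
  intro D hD1 hD2 a ha hab
  set x := Real.log b with hx
  have hx0 : 0 < x := by linarith
  have hD0 : 0 < D := lt_of_lt_of_le (Real.rpow_pos_of_pos hx0 _) hD1
  have hlD : 334 * Real.log x ≤ Real.log D := by
    have := Real.log_le_log (Real.rpow_pos_of_pos hx0 _) hD1
    rwa [Real.log_rpow hx0] at this
  have hlD0 : 0 < Real.log D := by linarith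
  have hllD : 1 ≤ Real.log (Real.log D) := by
    rw [Real.le_log_iff_exp_le hlD0]
    have := Real.exp_one_lt_d9
    linarith
  set y := D ^ (1 / 167 : ℝ) with hy
  have hy0 : 0 < y := Real.rpow_pos_of_pos hD0 _
  have hly : Real.log y = Real.log D / 167 := by rw [hy, Real.log_rpow hD0]; ring
  have hyx : x ^ 2 ≤ y := by
    rw [← Real.log_le_log_iff (by positivity) hy0, Real.log_pow, hly]
    push_cast; linarith
  have hyD : y ^ 167 = D := by
    rw [hy, ← Real.rpow_natCast, ← Real.rpow_mul hD0.le]; norm_num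
  set Z := ⌊y⌋₊ with hZ
  have hZy : (Z : ℝ) ≤ y := Nat.floor_le hy0.le
  have hyZ : y < Z + 1 := Nat.lt_floor_add_one y
  have hZ24 : (24 : ℝ) ≤ Z := by nlinarith
  have hZ2 : 2 ≤ Z := by
    have : (2 : ℝ) ≤ Z := by linarith
    exact_mod_cast this
  have hZ0 : Z₀ ≤ Z := by
    have : (Z₀ : ℝ) ≤ Z := by nlinarith
    exact_mod_cast this
  have hbZ' : 2 * (Nat.log 2 b + 1) ≤ Z := by
    have h1 := natLog_le_log (x := b) (by omega)
    have : ((2 * (Nat.log 2 b + 1) : ℕ) : ℝ) ≤ Z := by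
      push_cast; nlinarith
    exact_mod_cast this
  obtain ⟨S, hS1, hS2, hS3⟩ := hC Z hZ0 b hbZ' a hab
  refine ⟨S, ⟨fun n hn => (hS2 n hn).1, hS3⟩, ?_, fun n hn => ?_⟩
  · have hlZ : Real.log D / 334 ≤ Real.log Z := by
      have h1 : y ≤ (Z : ℝ) ^ 2 := by nlinarith
      have h2 := Real.log_le_log hy0 h1
      rw [Real.log_pow, hly] at h2
      push_cast at h2
      linarith
    have hDb : Real.log D ≤ x := Real.log_le_log hD0 hD2
    have hq : 1 ≤ x / Real.log D := (one_le_div hlD0).2 hDb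
    have h1 : (Nat.log Z b : ℝ) ≤ 334 * (x / Real.log D) := by
      have h2 := natLog_le_div hZ2 (b := b) (by omega)
      have h3 : (Nat.log Z b : ℝ) * (Real.log D / 334) ≤ x :=
        (mul_le_mul_of_nonneg_left hlZ (Nat.cast_nonneg _)).trans h2
      rw [← mul_div_assoc, le_div_iff₀ hlD0]
      linarith
    have h2 : ((Nat.log 2 (Nat.log 2 Z + 1) : ℕ) : ℝ) + 1 ≤ 7 * Real.log (Real.log D) := by
      have h3 := natLog_le_log (x := Z) (by omega)
      have h4 := natLog_le_log (x := Nat.log 2 Z + 1) (by omega)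
      have h5 : Real.log Z ≤ Real.log D := by
        have := Real.log_le_log (by linarith) hZy
        rw [hly] at this
        linarith
      have h6 : ((Nat.log 2 Z + 1 : ℕ) : ℝ) ≤ 3 * Real.log D := by push_cast; linarith
      have h7 : Real.log ((Nat.log 2 Z + 1 : ℕ) : ℝ) ≤ Real.log 3 + Real.log (Real.log D) := by
        rw [← Real.log_mul (by norm_num) hlD0.ne']
        exact Real.log_le_log (by positivity) h6
      have h8 : Real.log 3 ≤ 2 := by
        have := Real.log_le_sub_one_of_pos (x := 3) (by norm_num)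
        linarith
      linarith
    have h3 : (S.card : ℝ) ≤ C * (((Nat.log Z b : ℝ) + 1) *
        (((Nat.log 2 (Nat.log 2 Z + 1) : ℕ) : ℝ) + 1)) := by exact_mod_cast hS1
    calc (S.card : ℝ) ≤ _ := h3
      _ ≤ (C + 1) * ((335 * (x / Real.log D)) * (7 * Real.log (Real.log D))) := by
          gcongr
          · linarith
          · linarith
      _ = _ := by ring
  · have h1 : (n : ℝ) ≤ b * (Z : ℝ) ^ 167 := by exact_mod_cast (hS2 n hn).2
    refine h1.trans (mul_le_mul_of_nonneg_left ?_ (Nat.cast_nonneg _))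
    rw [← hyD]
    exact pow_le_pow_left₀ (Nat.cast_nonneg _) hZy _

theorem onePlusEps : ∃ C : ℝ, ∀ ε : ℝ, 0 < ε → ε ≤ 1 → ∀ᶠ b : ℕ in atTop,
    ∀ a : ℕ, 1 ≤ a → a < b → ∃ s : Finset ℕ, IsExpansion a b s ∧
      (s.card : ℝ) ≤ C / ε * Real.log (Real.log b) ∧ ∀ n ∈ s, (n : ℝ) ≤ (b : ℝ) ^ (1 + ε) := by
  obtain ⟨A, C, hC0, hC⟩ := trade
  refine ⟨C, fun ε hε hε1 => ?_⟩
  have h1 : ∀ᶠ x : ℝ in atTop, Real.log x ^ A ≤ x ^ ε := by
    filter_upwards [(isLittleO_log_rpow_rpow_atTop A hε).bound one_pos, eventually_ge_atTop 0]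
      with x hx hx0
    rw [one_mul, Real.norm_of_nonneg (Real.rpow_nonneg hx0 _)] at hx
    exact (le_abs_self _).trans hx
  filter_upwards [hC, tendsto_natCast_atTop_atTop.eventually h1, eventually_ge_atTop 2]
    with b hb hb1 hb2
  intro a ha hab
  have hb2' : (2 : ℝ) ≤ b := by exact_mod_cast hb2
  have hb0 : (0 : ℝ) < b := by linarith
  have hl0 : 0 < Real.log b := Real.log_pos (by linarith)
  have hle : (b : ℝ) ^ ε ≤ b := by
    have := Real.rpow_le_rpow_of_exponent_le (x := (b : ℝ)) (by linarith) hε1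
    rwa [Real.rpow_one] at this
  obtain ⟨s, hs1, hs2, hs3⟩ := hb ((b : ℝ) ^ ε) hb1 hle a ha hab
  refine ⟨s, hs1, hs2.trans ?_, fun n hn => ?_⟩
  · rw [Real.log_rpow hb0]
    have h2 : C * (Real.log b / (ε * Real.log b)) = C / ε := by field_simp
    rw [h2]
    apply mul_le_mul_of_nonneg_left _ (by positivity)
    exact Real.log_le_log (by positivity) (by nlinarith)
  · rw [Real.rpow_add hb0, Real.rpow_one]
    exact hs3 n hn

end Vale.Agent.N012
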