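import Vale.Agent.N012.Core

/-!
The trade-off between the size of the denominators and the number of terms: upper bound.
-/

namespace Vale.Agent.N012

open Finset Filter Vale.Agent.P012 Vale.Agent.P012.H422

theorem isUFB_self (u v B : ℕ) (hv : 0 < v) (hB : v ≤ B) : IsUFB B u ((u : ℚ) / v) := by
  refine ⟨Multiset.replicate u v, ?_, ?_, ?_⟩
  · intro n hn
    rw [Multiset.eq_of_mem_replicate hn]
    exact ⟨hv, hB⟩
  · rw [Multiset.card_replicate]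
  · rw [Multiset.map_replicate, Multiset.sum_replicate, nsmul_eq_mul, mul_one_div]

theorem base_exists : ∃ C : ℕ, 1 ≤ C ∧ ∀ Y : ℕ,
    Base Y (Y ^ 3) (C * (Nat.log 2 (Nat.log 2 Y + 1) + 1)) := by
  obtain ⟨C, b₀, hC⟩ := upper_natB
    (keyB_of exists_dvd_sum (vector_of collision_bound prime_count)) 1 le_rfl
  refine ⟨C + b₀ + 1, by omega, fun Y v u hv huv => ?_⟩
  by_cases h : b₀ ≤ v
  · obtain ⟨S, h1, h2, h3⟩ := hC v h u huv
    have h4 := isUFB_sum (B := Y ^ 3) S (fun n => n) (fun n hn => ⟨by have := (h2 n hn).1; omega, by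
      have := (h2 n hn).2
      rw [pow_one] at this
      exact this.trans (Nat.pow_le_pow_left hv _)⟩)
    rw [h3] at h4
    refine h4.mono le_rfl (h1.trans (Nat.mul_le_mul (by omega) ?_))
    have := Nat.log_mono_right (b := 2) (Nat.succ_le_succ (Nat.log_mono_right (b := 2) hv))
    exact Nat.succ_le_succ this
  · refine (isUFB_self u v (Y ^ 3) (by omega) (hv.trans (Nat.le_self_pow (by norm_num) Y))).mono
      le_rfl ?_
    calc u ≤ (C + b₀ + 1) * 1 := by omega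
      _ ≤ _ := Nat.mul_le_mul_left _ (by omega)

theorem primes_exist : ∃ Z₀ : ℕ, ∀ Z ≥ Z₀, ∀ J ≤ Z, ∃ P : Finset ℕ, P.card = J ∧
    (∀ v ∈ P, Z ≤ v ∧ v ≤ Z ^ 48) ∧ ∀ v ∈ P, ∀ w ∈ P, v ≠ w → Nat.Coprime v w := by
  obtain ⟨m₀, hm₀⟩ := prime_count
  refine ⟨max m₀ 100, fun Z hZ J hJ => ?_⟩
  have h1 := hm₀ Z (le_trans (le_max_left _ _) hZ)
  have h100 : 100 ≤ Z := le_trans (le_max_right _ _) hZ
  set Q := (Finset.Ioc (Z ^ 2) (Z ^ 48)).filter Nat.Prime with hQ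
  have hZR : (100 : ℝ) ≤ Z := by exact_mod_cast h100
  have hlog : Real.log Z ≤ Z := by
    have := Real.log_le_sub_one_of_pos (x := Z) (by linarith)
    linarith
  have hcard : Z ≤ Q.card := by
    by_contra hc
    push Not at hc
    have h2 : (Q.card : ℝ) ≤ Z := by exact_mod_cast hc.le
    have h3 : 100 * Real.log Z * Q.card ≤ Z * Z * Z := by
      have h4 : 0 ≤ Real.log Z := Real.log_nonneg (by linarith)
      gcongr
    have h5 : (Z : ℝ) ^ 3 < (Z : ℝ) ^ 48 := pow_lt_pow_right₀ (by linarith) (by norm_num)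
    nlinarith
  obtain ⟨P, hPQ, hPc⟩ := Finset.exists_subset_card_eq (s := Q) (n := J) (hJ.trans hcard)
  refine ⟨P, hPc, fun v hv => ?_, fun v hv w hw hvw => ?_⟩
  · have h6 := hPQ hv
    rw [hQ, Finset.mem_filter, Finset.mem_Ioc] at h6
    exact ⟨(Nat.le_self_pow (by norm_num) Z).trans h6.1.1.le, h6.1.2⟩
  · have h6 := hPQ hv
    have h7 := hPQ hw
    rw [hQ, Finset.mem_filter] at h6 h7
    exact (Nat.coprime_primes h6.2 h7.2).2 hvw

theorem loglog_pow (Z : ℕ) (hZ : 2 ≤ Z) :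
    Nat.log 2 (Nat.log 2 (Z ^ 48) + 1) + 1 ≤ 8 * (Nat.log 2 (Nat.log 2 Z + 1) + 1) := by
  set l := Nat.log 2 Z + 1 with hl
  have h1 : Z < 2 ^ l := Nat.lt_pow_succ_log_self (by norm_num) Z
  have h2 : Nat.log 2 (Z ^ 48) < l * 48 := by
    apply Nat.log_lt_of_lt_pow (by positivity)
    rw [pow_mul]
    exact Nat.pow_lt_pow_left h1 (by norm_num)
  set L := Nat.log 2 l + 1 with hL
  have h3 : l < 2 ^ L := Nat.lt_pow_succ_log_self (by norm_num) l
  have h4 : Nat.log 2 (Nat.log 2 (Z ^ 48) + 1) < L + 6 := by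
    apply Nat.log_lt_of_lt_pow (by omega)
    rw [pow_add]
    omega
  omega

/-- the trade-off in terms of integer logarithms. -/
theorem trade_nat : ∃ C Z₀ : ℕ, ∀ Z ≥ Z₀, ∀ b : ℕ, 2 * (Nat.log 2 b + 1) ≤ Z → ∀ a < b,
    ∃ S : Finset ℕ, S.card ≤ C * ((Nat.log Z b + 1) * (Nat.log 2 (Nat.log 2 Z + 1) + 1)) ∧
      (∀ n ∈ S, 2 ≤ n ∧ n ≤ b * Z ^ 167) ∧ ∑ n ∈ S, (1 : ℚ) / n = (a : ℚ) / b := by
  obtain ⟨C, hC1, hC⟩ := base_exists
  obtain ⟨Z₁, hZ₁⟩ := primes_exist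
  obtain ⟨Z₂, hZ₂⟩ := exists_log_le (100 * C)
  refine ⟨500 * C, max (max Z₁ Z₂) 64, fun Z hZ b hbZ a hab => ?_⟩
  have hZ64 : 64 ≤ Z := le_trans (le_max_right _ _) hZ
  have hZ1 : Z₁ ≤ Z := le_trans (le_trans (le_max_left _ _) (le_max_left _ _)) hZ
  have hZ2 : Z₂ ≤ Z := le_trans (le_trans (le_max_right _ _) (le_max_left _ _)) hZ
  have hb : 0 < b := by omega
  obtain ⟨l, hl⟩ : ∃ l, l = Nat.log 2 Z + 1 := ⟨_, rfl⟩
  have hZl : Z < 2 ^ l := by rw [hl]; exact Nat.lt_pow_succ_log_self (by norm_num) Z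
  have hlZ : 2 ^ l ≤ 2 * Z := by
    rw [hl, pow_succ, mul_comm]
    exact Nat.mul_le_mul_left _ (Nat.pow_log_le_self 2 (by omega))
  have hCl := hZ₂ Z hZ2
  rw [← hl] at hCl ⊢
  obtain ⟨L, hL⟩ : ∃ L, L = Nat.log 2 l + 1 := ⟨_, rfl⟩
  rw [← hL]
  have hl1 : 1 ≤ l := by omega
  have hL1 : 1 ≤ L := by omega
  have hLl : L ≤ l := by
    have := Nat.log_lt_self 2 (x := l) (by omega)
    omega
  have hlL : l < 2 ^ L := by rw [hL]; exact Nat.lt_pow_succ_log_self (by norm_num) l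
  obtain ⟨F, hF⟩ : ∃ F, F = C * (Nat.log 2 (Nat.log 2 (Z ^ 48) + 1) + 1) := ⟨_, rfl⟩
  have hbase := hC (Z ^ 48)
  rw [← hF] at hbase
  have hFL : F ≤ 8 * (C * L) := by
    have h1 := loglog_pow Z (by omega)
    rw [← hl, ← hL] at h1
    calc F ≤ C * (8 * L) := by rw [hF]; exact Nat.mul_le_mul_left _ h1
      _ = 8 * (C * L) := by ring
  have hCL : 100 * (C * L) ≤ Z := by
    calc 100 * (C * L) ≤ 100 * (C * l) := Nat.mul_le_mul_left _ (Nat.mul_le_mul_left _ hLl)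
      _ = 100 * C * l := by ring
      _ ≤ Z := hCl
  -- the power of two
  obtain ⟨t, ht⟩ : ∃ t, t = 2 * l := ⟨_, rfl⟩
  have ht1 : Z * Z ≤ 2 ^ t := by
    rw [ht, two_mul, pow_add]; exact Nat.mul_le_mul hZl.le hZl.le
  have ht2 : 2 ^ t ≤ Z ^ 4 := by
    calc 2 ^ t = 2 ^ l * 2 ^ l := by rw [ht, two_mul, pow_add]
      _ ≤ (Z * Z) * (Z * Z) := by
          have : 2 ^ l ≤ Z * Z := hlZ.trans (Nat.mul_le_mul_right _ (by omega))
          exact Nat.mul_le_mul this this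
      _ = Z ^ 4 := by ring
  obtain ⟨j, hj⟩ : ∃ j, j = Nat.log 2 t + 1 := ⟨_, rfl⟩
  have hj1 : t < 2 ^ j := by rw [hj]; exact Nat.lt_pow_succ_log_self (by norm_num) t
  have hj2 : 2 ^ j ≤ 2 * t := by
    rw [hj, pow_succ, mul_comm]
    exact Nat.mul_le_mul_left _ (Nat.pow_log_le_self 2 (by omega))
  have hjL : j ≤ L + 1 := by
    have : Nat.log 2 t < L + 1 := by
      apply Nat.log_lt_of_lt_pow (by omega)
      rw [pow_succ]; omega
    omega
  have hj3 : 2 ^ (2 * 2 ^ j) ≤ Z ^ 16 := by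
    calc 2 ^ (2 * 2 ^ j) ≤ 2 ^ (t * 4) := Nat.pow_le_pow_right (by norm_num) (by omega)
      _ = (2 ^ t) ^ 4 := by rw [pow_mul]
      _ ≤ (Z ^ 4) ^ 4 := Nat.pow_le_pow_left ht2 4
      _ = Z ^ 16 := by rw [← pow_mul]
  obtain ⟨a', b', S₁, hb', hb'2, ha', hS1c, hS1, hS1s⟩ := greedyS j a b hb hab
  have hb'Z : b' ≤ b * Z ^ 16 := hb'2.trans (Nat.mul_le_mul_left _ hj3)
  have ha't : a' * 2 ^ t < b' := by
    rcases Nat.eq_zero_or_pos a' with h0 | h0
    · subst h0; simpa using hb'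
    · exact lt_of_lt_of_le (Nat.mul_lt_mul_of_pos_left
        (Nat.pow_lt_pow_right (by norm_num) hj1) h0) ha'
  obtain ⟨J, hJ⟩ : ∃ J, J = Nat.log Z b' + 1 := ⟨_, rfl⟩
  have hJ1 : b' < Z ^ J := by rw [hJ]; exact Nat.lt_pow_succ_log_self (by omega) b'
  have hJ2 : Z ^ J ≤ b' * Z := by
    rw [hJ, pow_succ]
    exact Nat.mul_le_mul_right _ (Nat.pow_log_le_self Z hb'.ne')
  obtain ⟨g, hg⟩ : ∃ g, g = Nat.log Z b + 1 := ⟨_, rfl⟩
  rw [← hg]
  have hJg : J ≤ g + 16 := by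
    have h1 : b < Z ^ g := by rw [hg]; exact Nat.lt_pow_succ_log_self (by omega) b
    have h2 : Nat.log Z b' < g + 16 := by
      apply Nat.log_lt_of_lt_pow hb'.ne'
      rw [pow_add]
      exact lt_of_le_of_lt hb'Z (Nat.mul_lt_mul_of_pos_right h1 (by positivity))
    omega
  have hg2 : 2 * g ≤ Z := by
    have : Nat.log Z b ≤ Nat.log 2 b := Nat.log_anti_left (by norm_num) (by omega)
    omega
  have hg1 : 1 ≤ g := by omega
  obtain ⟨P, hPc, hP, hcop⟩ := hZ₁ Z hZ1 J (by omega)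
  have hcore := core hbase (Nat.le_self_pow (by norm_num) Z) P hP hcop (by omega) (a' * 2 ^ t) b'
    ha't (by rw [hPc]; exact hJ1.le) (by rw [hPc]; exact hJ2)
  rw [hPc] at hcore
  have hK : (3 * J + 3) * F ≤ 2 ^ t := by
    refine le_trans ?_ ht1
    calc (3 * J + 3) * F ≤ (4 * Z) * (8 * (C * L)) := Nat.mul_le_mul (by omega) hFL
      _ = Z * (32 * (C * L)) := by ring
      _ ≤ Z * Z := Nat.mul_le_mul_left _ (by omega)
  obtain ⟨S₂, hS2c, hS2, hS2s⟩ := distinct hcore hK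
  have hb'Q : (0 : ℚ) < b' := by positivity
  have hS2s' : ∑ n ∈ S₂, (1 : ℚ) / n = (a' : ℚ) / b' := by
    rw [hS2s]; push_cast; field_simp
  have hlarge : ∀ n ∈ S₂, b' ≤ a' * n := by
    intro n hn
    have h1 : (1 : ℚ) / n ≤ ∑ n ∈ S₂, (1 : ℚ) / n :=
      Finset.single_le_sum (f := fun n : ℕ => (1 : ℚ) / n) (fun i _ => by positivity) hn
    have hn0 : (0 : ℚ) < n := by exact_mod_cast (hS2 n hn).1
    rw [hS2s', div_le_div_iff₀ hn0 hb'Q, one_mul] at h1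
    exact_mod_cast h1
  have hdisj : Disjoint S₁ S₂ := by
    rw [Finset.disjoint_left]
    intro n h1 h2
    have h3 := (hS1 n h1).2.2
    have h4 := hlarge n h2
    rw [mul_comm] at h4
    omega
  have ha2 : a' * 2 ≤ b' := by
    refine le_trans (Nat.mul_le_mul_left _ ?_) ha'
    calc 2 = 2 ^ 1 := by norm_num
      _ ≤ 2 ^ (2 ^ j) := Nat.pow_le_pow_right (by norm_num) Nat.one_le_two_pow
  refine ⟨S₁ ∪ S₂, ?_, ?_, ?_⟩
  · rw [Finset.card_union_of_disjoint hdisj]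
    have h1 : (3 * J + 3) * F ≤ (54 * g) * (8 * (C * L)) := Nat.mul_le_mul (by omega) hFL
    have h2 : L ≤ C * (g * L) := by
      calc L = 1 * (1 * L) := by ring
        _ ≤ C * (g * L) := Nat.mul_le_mul hC1 (Nat.mul_le_mul_right _ hg1)
    have h3 : (54 * g) * (8 * (C * L)) = 432 * (C * (g * L)) := by ring
    have h4 : 500 * C * (g * L) = 500 * (C * (g * L)) := by ring
    rw [h4]
    omega
  · intro n hn
    rcases Finset.mem_union.1 hn with h | h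
    · refine ⟨(hS1 n h).1, ((hS1 n h).2.1.trans hj3).trans ?_⟩
      calc Z ^ 16 ≤ Z ^ 167 := Nat.pow_le_pow_right (by omega) (by norm_num)
        _ ≤ b * Z ^ 167 := Nat.le_mul_of_pos_left _ hb
    · refine ⟨?_, (hS2 n h).2.trans ?_⟩
      · have h1 := hlarge n h
        by_contra hcon
        have h3 : a' * n ≤ a' * 1 := Nat.mul_le_mul_left _ (by omega)
        omega
      · calc (Z ^ 48) ^ 3 * (b' * Z ^ 3) * 2 ^ t ≤ (Z ^ 48) ^ 3 * (b * Z ^ 16 * Z ^ 3) * Z ^ 4 :=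
            Nat.mul_le_mul (Nat.mul_le_mul_left _ (Nat.mul_le_mul_right _ hb'Z)) ht2
          _ = b * Z ^ 167 := by ring
  · rw [Finset.sum_union hdisj, hS1s, hS2s']
    ring

end Vale.Agent.N012
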